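import Vale.Agent.P268.T.H128.TEqv
import Vale.Agent.P268.T.H548.Defs
import Vale.Agent.P268.T.H830.Level

/-!
# P268, topological half, route V: nested strengths and gated chains

`EvS c Q`: the statement `Q` holds for all strengths `al` (one for every exponent of the chain `c`
except the last one), each large in terms of the previous ones.  `GCh Γ G χ c al`: the gated chain,
on the space `Sp c` of helper548.
-/

set_option linter.unusedSectionVars false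

namespace Vale.Agent.P268.T

open Set Filter Topology

/-- Nested `for all large strengths`. -/
def EvS : List ℕ → (List ℝ → Prop) → Prop
  | [], Q => Q []
  | [_], Q => Q []
  | _ :: b :: c, Q => EvS (b :: c) fun al => ∃ l₀ : ℝ, ∀ l ≥ l₀, Q (l :: al)

theorem EvS.mono : ∀ {c : List ℕ} {Q Q' : List ℝ → Prop}, EvS c Q → (∀ al, Q al → Q' al) →
    EvS c Q'
  | [], _, _, h, hQ => hQ _ h
  | [_], _, _, h, hQ => hQ _ h
  | _ :: b :: c, _, _, h, hQ =>
    EvS.mono (c := b :: c) h fun _ ⟨l₀, hl⟩ => ⟨l₀, fun l hl' => hQ _ (hl l hl')⟩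

theorem EvS.and : ∀ {c : List ℕ} {Q Q' : List ℝ → Prop}, EvS c Q → EvS c Q' →
    EvS c fun al => Q al ∧ Q' al
  | [], _, _, h, h' => ⟨h, h'⟩
  | [_], _, _, h, h' => ⟨h, h'⟩
  | _ :: b :: c, _, _, h, h' =>
    EvS.mono (c := b :: c) (EvS.and (c := b :: c) h h') fun _ ⟨⟨l₀, hl⟩, l₁, hl'⟩ =>
      ⟨max l₀ l₁, fun l hm => ⟨hl l ((le_max_left _ _).trans hm),
        hl' l ((le_max_right _ _).trans hm)⟩⟩

theorem EvS.of_forall : ∀ {c : List ℕ} {Q : List ℝ → Prop}, (∀ al, Q al) → EvS c Q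
  | [], _, h => h _
  | [_], _, h => h _
  | _ :: b :: c, _, h => EvS.of_forall (c := b :: c) fun _ => ⟨0, fun _ _ => h _⟩

theorem EvS.exists : ∀ {c : List ℕ} {Q : List ℝ → Prop}, EvS c Q → ∃ al, Q al
  | [], _, h => ⟨_, h⟩
  | [_], _, h => ⟨_, h⟩
  | _ :: b :: c, _, h => by
    obtain ⟨al, l₀, hl⟩ := EvS.exists (c := b :: c) h
    exact ⟨l₀ :: al, hl l₀ le_rfl⟩

/-- The number of turns of the head variable of the chain `b :: c`. -/
def Tn (b : ℕ) (c : List ℕ) : ℕ := if c = [] then b else b + 1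

@[simp] theorem Tn_nil (b : ℕ) : Tn b [] = b := rfl

@[simp] theorem Tn_cons (b a : ℕ) (c : List ℕ) : Tn b (a :: c) = b + 1 := rfl

/-- The gated chain: `Γ a` the functions of the first variable, `G a d z` the gates, `χ a T y` the
gate functions for a variable `y` with `T` turns. -/
noncomputable def GCh (Γ : ℕ → ℂ → ℂ) (G : ℕ → ℝ → ℂ → ℂ) (χ : ℕ → ℕ → ℂ → ℝ) :
    ∀ c : List ℕ, List ℝ → Sp c → ℂ
  | [], _ => fun _ => 0
  | [a], _ => fun p => Γ a p.2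
  | a :: b :: c, al => fun p =>
    GCh Γ G χ (b :: c) al.tail p.1 + G a (al.headD 0 * χ a (Tn b c) p.1.2) p.2

theorem GCh_single (Γ : ℕ → ℂ → ℂ) (G : ℕ → ℝ → ℂ → ℂ) (χ : ℕ → ℕ → ℂ → ℝ) (a : ℕ)
    (al : List ℝ) (p : Sp [] × ℂ) : GCh Γ G χ [a] al p = Γ a p.2 := rfl

theorem GCh_cons (Γ : ℕ → ℂ → ℂ) (G : ℕ → ℝ → ℂ → ℂ) (χ : ℕ → ℕ → ℂ → ℝ) (a b : ℕ)
    (c : List ℕ) (l : ℝ) (al : List ℝ) (p : (Sp c × ℂ) × ℂ) :
    GCh Γ G χ (a :: b :: c) (l :: al) p =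
      GCh Γ G χ (b :: c) al p.1 + G a (l * χ a (Tn b c) p.1.2) p.2 := rfl

end Vale.Agent.P268.T
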