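import Vale.Agent.P268.T.H530.Rep
import Vale.Agent.P268.T.H500.FSide
import Vale.Agent.P268.T.Blocks1

/-!
# P268, topological half, block B1: from gated ray functions to the ray function of the staircase

`GR ε c M b`: rays of the variables `x j`, the last ray `c j - 1` of `x j` is gated by the next
variable.  `gate_hEqv`: for small `ε` the function `GR ε c M b` is equivalent to the ray function of
the staircase.  Path: the penalties `M j * b j (x (j + 1))` are moved to the penalties
`K * |re x (j + 1)|` of the forbidden positions.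
-/

set_option linter.unusedSectionVars false

namespace Vale.Agent.P268.T.G417

open Set Filter Topology Vale.Agent.P268.Z

/-- Admissible positions: the last ray is forbidden only for the last index. -/
def BoxP (c : List ℕ) (p : Fin c.length → ℕ) : Prop :=
  ∀ j : Fin c.length, p j + 1 < c.get j ∨ (p j + 1 = c.get j ∧ (j : ℕ) + 1 < c.length)

/-- The box. -/
abbrev Box (c : List ℕ) : Type := {p : Fin c.length → ℕ // BoxP c p}

theorem BoxP.lt {c : List ℕ} {p : Fin c.length → ℕ} (h : BoxP c p) (j : Fin c.length) :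
    p j < c.get j := by
  rcases h j with h | ⟨h, _⟩ <;> omega

noncomputable instance (c : List ℕ) : Fintype (Box c) := by
  haveI : Finite (Box c) :=
    Finite.of_injective (β := (j : Fin c.length) → Fin (c.get j))
      (fun p j => ⟨p.1 j, p.2.lt j⟩) fun p q h => by
        apply Subtype.ext
        funext j
        have := congrFun h j
        exact congrArg Fin.val this
  exact Fintype.ofFinite _

theorem StairP.box {c : List ℕ} {p : Fin c.length → ℕ} (h : StairP c p) : BoxP c p := by
  intro j
  rcases h j with h | ⟨h, h', _⟩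
  · exact Or.inl h
  · exact Or.inr ⟨h, h'⟩

instance instNonemptyBox (c : List ℕ) [h : Nonempty (Stair c)] : Nonempty (Box c) :=
  ⟨⟨h.some.1, StairP.box h.some.2⟩⟩

/-- Gate functions: `b j` is evaluated at the variable `j + 1`. -/
structure GateOK (c : List ℕ) (d : ℝ) (b : Fin c.length → ℂ → ℝ) : Prop where
  cont : ∀ j, Continuous (b j)
  hom : ∀ j (r : ℝ), 0 ≤ r → ∀ z, b j (r • z) = r * b j z
  nonneg : ∀ j z, 0 ≤ b j z
  neg : ∀ j z, z.re < 0 → |z.im| ≤ d * |z.re| → b j z = 0
  small : ∀ (j : Fin c.length) (k : ℕ) (z : ℂ), k < c.get j → 0 < z.re →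
    |z.im - k * z.re| ≤ d * z.re → b j z = 0
  big : ∀ (j : Fin c.length) (h : (j : ℕ) + 1 < c.length) (k : ℕ) (z : ℂ), c.get j ≤ k →
    (k + 1 < c.get ⟨j + 1, h⟩ ∨ (k + 1 = c.get ⟨j + 1, h⟩ ∧ (j : ℕ) + 2 < c.length)) →
    0 < z.re → |z.im - k * z.re| ≤ d * z.re → z.re ≤ b j z

variable {c : List ℕ}

/-- The penalties at time `τ`. -/
noncomputable def pen (c : List ℕ) (K : ℝ) (M : Fin c.length → ℝ) (b : Fin c.length → ℂ → ℝ)
    (τ : ℝ) (p : Fin c.length → ℕ) (x : Fin c.length → ℂ) (j : Fin c.length) : ℝ :=
  if h : (j : ℕ) + 1 < c.length ∧ p j + 1 = c.get j then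
    (1 - τ) * (M j * b j (x ⟨j + 1, h.1⟩)) +
      τ * (K * (if c.get j ≤ p ⟨j + 1, h.1⟩ then |(x ⟨j + 1, h.1⟩).re| else 0))
  else 0

/-- The value of the position `p`. -/
noncomputable def val (ε : ℝ) (c : List ℕ) (K : ℝ) (M : Fin c.length → ℝ)
    (b : Fin c.length → ℂ → ℝ) (τ : ℝ) (p : Fin c.length → ℕ) (x : Fin c.length → ℂ) : ℝ :=
  ∑ j, ray ε (p j) (x j) - ∑ j, pen c K M b τ p x j

/-- The family. -/
noncomputable def Phi (ε : ℝ) (c : List ℕ) [Nonempty (Stair c)] (K : ℝ) (M : Fin c.length → ℝ)
    (b : Fin c.length → ℂ → ℝ) (τ : ℝ) (x : Fin c.length → ℂ) : ℂ :=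
  ⟨Finset.univ.sup' Finset.univ_nonempty fun p : Box c => val ε c K M b τ p.1 x, turnSum x⟩

/-- Gated ray functions. -/
noncomputable def GR (ε : ℝ) (c : List ℕ) [Nonempty (Stair c)] (M : Fin c.length → ℝ)
    (b : Fin c.length → ℂ → ℝ) (x : Fin c.length → ℂ) : ℂ :=
  ⟨Finset.univ.sup' Finset.univ_nonempty fun p : Box c => ∑ j, ray ε (p.1 j) (x j) -
    ∑ j : Fin c.length, if h : (j : ℕ) + 1 < c.length ∧ p.1 j + 1 = c.get j then
      M j * b j (x ⟨j + 1, h.1⟩) else 0, turnSum x⟩

section

variable {ε K δ : ℝ} {M : Fin c.length → ℝ} {b : Fin c.length → ℂ → ℝ} {τ : ℝ}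

theorem pen_nonneg (hK : 0 ≤ K) (hM : ∀ j, 0 ≤ M j) (hb : ∀ j z, 0 ≤ b j z) (hτ : τ ∈ Icc (0 : ℝ) 1)
    (p : Fin c.length → ℕ) (x : Fin c.length → ℂ) (j : Fin c.length) :
    0 ≤ pen c K M b τ p x j := by
  unfold pen
  split_ifs with h h'
  · have h1 : 0 ≤ 1 - τ := by linarith [hτ.2]
    have h2 := hM j
    have h3 := hb j (x ⟨j + 1, h.1⟩)
    have h4 := hτ.1
    positivity
  · have h1 : 0 ≤ 1 - τ := by linarith [hτ.2]
    have h2 := hM j
    have h3 := hb j (x ⟨j + 1, h.1⟩)
    have h4 := hτ.1
    positivity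
  · exact le_rfl

theorem continuous_pen (hb : ∀ j, Continuous (b j)) (p : Fin c.length → ℕ) (j : Fin c.length) :
    Continuous fun q : ℝ × (Fin c.length → ℂ) => pen c K M b q.1 p q.2 j := by
  unfold pen
  split_ifs with h h'
  · have := hb j
    fun_prop
  · have := hb j
    fun_prop
  · fun_prop

theorem continuous_val (hb : ∀ j, Continuous (b j)) (p : Fin c.length → ℕ) :
    Continuous fun q : ℝ × (Fin c.length → ℂ) => val ε c K M b q.1 p q.2 := by
  unfold val
  refine Continuous.sub ?_ ?_
  · refine continuous_finsetSum _ fun j _ => ?_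
    exact (continuous_ray' ε (p j)).comp (by fun_prop)
  · exact continuous_finsetSum _ fun j _ => continuous_pen hb p j

theorem continuous_turnSum : Continuous fun x : Fin c.length → ℂ => turnSum x := by
  unfold turnSum
  exact continuous_finsetSum _ fun j _ => continuous_turn'.comp (continuous_apply j)

theorem continuous_Phi [Nonempty (Stair c)] (hb : ∀ j, Continuous (b j)) :
    Continuous fun q : ℝ × (Fin c.length → ℂ) => Phi ε c K M b q.1 q.2 := by
  have h1 : (fun q : ℝ × (Fin c.length → ℂ) => Phi ε c K M b q.1 q.2) = fun q =>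
      ((Finset.univ.sup' Finset.univ_nonempty fun p : Box c => val ε c K M b q.1 p.1 q.2 : ℝ) : ℂ) +
      ((turnSum q.2 : ℝ) : ℂ) * Complex.I := by
    funext q
    apply Complex.ext
    · simp [Phi]
    · simp [Phi]
  rw [h1]
  have h2 : Continuous fun q : ℝ × (Fin c.length → ℂ) =>
      Finset.univ.sup' (Finset.univ_nonempty (α := Box c)) fun p : Box c =>
        val ε c K M b q.1 p.1 q.2 :=
    Continuous.finset_sup'_apply _ fun p _ => continuous_val hb p.1
  have h3 : Continuous fun q : ℝ × (Fin c.length → ℂ) => turnSum q.2 :=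
    continuous_turnSum.comp continuous_snd
  fun_prop

/-- The sum of the rays, when `x i` is off the ray `p i`. -/
theorem sum_ray_le (hε : 0 ≤ ε) {u : ℝ} {x : Fin c.length → ℂ} (hx : ∀ j, |(x j).re| ≤ u)
    (p : Fin c.length → ℕ) (i : Fin c.length) :
    ∑ j, ray ε (p j) (x j) ≤ c.length * (ε * u) - |(x i).im - p i * max (x i).re 0| / 2 := by
  have h1 : ∀ j ∈ (Finset.univ : Finset (Fin c.length)), ray ε (p j) (x j) ≤
      ε * u - if j = i then |(x i).im - p i * max (x i).re 0| / 2 else 0 := by
    intro j _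
    have h2 : ε * |(x j).re| ≤ ε * u := mul_le_mul_of_nonneg_left (hx j) hε
    unfold ray
    split_ifs with h
    · subst h
      linarith
    · have := abs_nonneg ((x j).im - p j * max (x j).re 0)
      linarith
  refine (Finset.sum_le_sum h1).trans ?_
  rw [Finset.sum_sub_distrib, Finset.sum_ite_eq' Finset.univ i]
  simp

/-- The increment of the value of a position in the direction of the variable `i`. -/
theorem val_update {p : Fin c.length → ℕ} {x : Fin c.length → ℂ} {i : Fin c.length} {w : ℂ}
    (h : ∀ j : Fin c.length, (j : ℕ) + 1 = i → p j + 1 = c.get j →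
      b j (x i) = 0 ∧ b j w = 0 ∧ p i < c.get j) :
    val ε c K M b τ p (Function.update x i w) = val ε c K M b τ p x +
      (ray ε (p i) w - ray ε (p i) (x i)) := by
  have h1 : ∀ j, pen c K M b τ p (Function.update x i w) j = pen c K M b τ p x j := by
    intro j
    unfold pen
    by_cases hj : (j : ℕ) + 1 < c.length ∧ p j + 1 = c.get j
    · rw [dif_pos hj, dif_pos hj]
      by_cases hi : (⟨j + 1, hj.1⟩ : Fin c.length) = i
      · have hi' : (j : ℕ) + 1 = i := by rw [← hi]
        obtain ⟨e1, e2, e3⟩ := h j hi' hj.2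
        rw [hi, Function.update_self, e1, e2, if_neg (not_le.mpr e3), if_neg (not_le.mpr e3)]
      · rw [Function.update_of_ne hi]
    · rw [dif_neg hj, dif_neg hj]
  have h2 : ∑ j, ray ε (p j) (Function.update x i w j) - ∑ j, ray ε (p j) (x j) =
      ray ε (p i) w - ray ε (p i) (x i) := by
    rw [← Finset.sum_sub_distrib, Finset.sum_eq_single i]
    · rw [Function.update_self]
    · intro j _ hj
      rw [Function.update_of_ne hj, sub_self]
    · intro hi
      exact absurd (Finset.mem_univ i) hi
  unfold val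
  rw [Finset.sum_congr rfl fun j _ => h1 j]
  linarith

theorem turnSum_update (x : Fin c.length → ℂ) (i : Fin c.length) (w : ℂ) :
    turnSum (Function.update x i w) - turnSum x = turn w - turn (x i) := by
  unfold turnSum
  rw [← Finset.sum_sub_distrib, Finset.sum_eq_single i]
  · rw [Function.update_self]
  · intro j _ hj
    rw [Function.update_of_ne hj, sub_self]
  · intro hi
    exact absurd (Finset.mem_univ i) hi

/-- Monotonicity from the increments, positive side. -/
theorem monOn_of_incr_pos (hε : 0 < ε) {i : Fin c.length} {k : ℕ} {F : (Fin c.length → ℂ) → ℂ}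
    {U : Set (Fin c.length → ℂ)}
    (hU : ∀ y ∈ U, 0 < (y i).re ∧ |(y i).im - k * (y i).re| < (y i).re / 4)
    (h : ∀ y ∈ U, ∀ w, Function.update y i w ∈ U →
      (F (Function.update y i w)).re = (F y).re + (ray ε k w - ray ε k (y i)) ∧
      (F (Function.update y i w)).im = (F y).im + (turn w - turn (y i))) :
    MonOn (1 / 2) 3 F (GateR.AD i k 1 ε⁻¹) U := by
  have hR : ε * ε⁻¹ = 1 := mul_inv_cancel₀ hε.ne'
  intro y hy c' hc
  rw [GateR.add_AD] at hc ⊢
  have hz := hU _ hc
  rw [Function.update_self] at hz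
  obtain ⟨h1, h2⟩ := GateR.incr_pos hR (hU y hy).1 hz.1 (hU y hy).2.le hz.2.le
  obtain ⟨h3, h4⟩ := h y hy _ hc
  refine GateR.mon_step ?_ ?_
  · rw [Complex.sub_re, h3]
    have : (F y).re + (ray ε k (y i + GateR.D k 1 ε⁻¹ c') - ray ε k (y i)) - (F y).re - c'.re =
      ray ε k (y i + GateR.D k 1 ε⁻¹ c') - ray ε k (y i) - c'.re := by ring
    rw [this]
    exact h1
  · rw [Complex.sub_im, h4, ← h2]
    ring

/-- Monotonicity from the increments, negative side. -/
theorem monOn_of_incr_neg (hε : 0 < ε) {i : Fin c.length} {k : ℕ} {F : (Fin c.length → ℂ) → ℂ}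
    {U : Set (Fin c.length → ℂ)}
    (hU : ∀ y ∈ U, (y i).re < 0 ∧ |(y i).im| < |(y i).re| / 4)
    (h : ∀ y ∈ U, ∀ w, Function.update y i w ∈ U →
      (F (Function.update y i w)).re = (F y).re + (ray ε k w - ray ε k (y i)) ∧
      (F (Function.update y i w)).im = (F y).im + (turn w - turn (y i))) :
    MonOn (1 / 2) 3 F (GateR.AD i k (-1) ε⁻¹) U := by
  have hR : ε * ε⁻¹ = 1 := mul_inv_cancel₀ hε.ne'
  intro y hy c' hc
  rw [GateR.add_AD] at hc ⊢
  have hz := hU _ hc
  rw [Function.update_self] at hz
  obtain ⟨h1, h2⟩ := GateR.incr_neg (k := k) hR (hU y hy).1 hz.1 (hU y hy).2.le hz.2.le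
  obtain ⟨h3, h4⟩ := h y hy _ hc
  refine GateR.mon_step ?_ ?_
  · rw [Complex.sub_re, h3]
    have : (F y).re + (ray ε k (y i + GateR.D k (-1) ε⁻¹ c') - ray ε k (y i)) - (F y).re - c'.re =
      ray ε k (y i + GateR.D k (-1) ε⁻¹ c') - ray ε k (y i) - c'.re := by ring
    rw [this]
    exact h1
  · rw [Complex.sub_im, h4, ← h2]
    ring

theorem val_le_Phi [Nonempty (Stair c)] (p : Box c) (x : Fin c.length → ℂ) :
    val ε c K M b τ p.1 x ≤ (Phi ε c K M b τ x).re :=
  Finset.le_sup' (fun p : Box c => val ε c K M b τ p.1 x) (Finset.mem_univ p)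

theorem exists_val_eq [Nonempty (Stair c)] (x : Fin c.length → ℂ) :
    ∃ p : Box c, (Phi ε c K M b τ x).re = val ε c K M b τ p.1 x := by
  obtain ⟨p, _, hp⟩ := Finset.exists_mem_eq_sup' (Finset.univ_nonempty (α := Box c))
    fun p : Box c => val ε c K M b τ p.1 x
  exact ⟨p, hp⟩

/-- Resetting a position to `0`. -/
theorem BoxP.reset (hc : ∀ a ∈ c, 2 ≤ a) {p : Fin c.length → ℕ} (hp : BoxP c p)
    (i : Fin c.length) : BoxP c (Function.update p i 0) := by
  intro j
  by_cases hj : j = i
  · subst hj
    rw [Function.update_self]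
    have := hc _ (List.get_mem c j)
    exact Or.inl (by omega)
  · rw [Function.update_of_ne hj]
    exact hp j

/-- Where `re x i ≤ 0`, the position `p i` may be reset to `0`. -/
theorem val_le_reset (hc : ∀ a ∈ c, 2 ≤ a) (hK : 0 ≤ K) (hM : ∀ j, 0 ≤ M j)
    (hb : ∀ j z, 0 ≤ b j z) (hτ : τ ∈ Icc (0 : ℝ) 1) (p : Fin c.length → ℕ)
    {x : Fin c.length → ℂ} {i : Fin c.length} (hx : (x i).re ≤ 0) :
    val ε c K M b τ p x ≤ val ε c K M b τ (Function.update p i 0) x := by
  have h1 : ∀ j, ray ε (p j) (x j) = ray ε (Function.update p i 0 j) (x j) := by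
    intro j
    by_cases hj : j = i
    · subst hj
      unfold ray
      rw [max_eq_right hx, mul_zero, mul_zero]
    · rw [Function.update_of_ne hj]
  have h2 : ∀ j, pen c K M b τ (Function.update p i 0) x j ≤ pen c K M b τ p x j := by
    intro j
    by_cases hj : j = i
    · subst hj
      have h3 : pen c K M b τ (Function.update p j 0) x j = 0 := by
        unfold pen
        rw [dif_neg]
        rintro ⟨_, h⟩
        rw [Function.update_self] at h
        have := hc _ (List.get_mem c j)
        omega
      rw [h3]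
      exact pen_nonneg hK hM hb hτ _ _ _
    · unfold pen
      by_cases h : (j : ℕ) + 1 < c.length ∧ p j + 1 = c.get j
      · have h' : (j : ℕ) + 1 < c.length ∧ Function.update p i 0 j + 1 = c.get j := by
          rw [Function.update_of_ne hj]
          exact h
        rw [dif_pos h, dif_pos h']
        have h3 := hτ.1
        have h6 : 0 ≤ |(x ⟨j + 1, h.1⟩).re| := abs_nonneg _
        have h7 : (if c.get j ≤ Function.update p i 0 ⟨j + 1, h.1⟩ then |(x ⟨j + 1, h.1⟩).re|
            else 0) ≤ (if c.get j ≤ p ⟨j + 1, h.1⟩ then |(x ⟨j + 1, h.1⟩).re| else 0) := by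
          by_cases hi : (⟨j + 1, h.1⟩ : Fin c.length) = i
          · rw [hi, Function.update_self, if_neg (by
              have := hc _ (List.get_mem c j)
              omega)]
            rw [hi] at h6
            split_ifs
            · exact h6
            · exact le_rfl
          · rw [Function.update_of_ne hi]
        have h8 := mul_le_mul_of_nonneg_left (mul_le_mul_of_nonneg_left h7 hK) h3
        linarith
      · have h' : ¬((j : ℕ) + 1 < c.length ∧ Function.update p i 0 j + 1 = c.get j) := by
          rw [Function.update_of_ne hj]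
          exact h
        rw [dif_neg h, dif_neg h']
  unfold val
  rw [Finset.sum_congr rfl fun j _ => h1 j]
  linarith [Finset.sum_le_sum fun j (_ : j ∈ Finset.univ) => h2 j]

/-- Regularity of the family. -/
theorem regAt_Phi [Nonempty (Stair c)] (hc : ∀ a ∈ c, 2 ≤ a) {d : ℝ} (hd : 0 < d)
    (hb : GateOK c d b) (hM : ∀ j, 1 ≤ M j) (hK : 1 ≤ K) (hε : 0 < ε)
    (h1 : 8 * c.length * ε < 1) (h2 : 4 * c.length * ε < d) {τ₀ : ℝ} (hτ₀ : τ₀ ∈ Icc (0 : ℝ) 1)
    {x₀ : Fin c.length → ℂ} (hx₀ : x₀ ≠ 0) (h0 : 0 ≤ (Phi ε c K M b τ₀ x₀).re) :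
    RegAt (Icc (0 : ℝ) 1) (Phi ε c K M b) τ₀ x₀ := by
  have hK0 : 0 ≤ K := by linarith
  have hM0 : ∀ j, 0 ≤ M j := fun j => by linarith [hM j]
  -- the dominating variable
  obtain ⟨i₁, hi₁⟩ : ∃ i, x₀ i ≠ 0 := by
    by_contra hcon
    push Not at hcon
    exact hx₀ (funext hcon)
  obtain ⟨i, -, hi⟩ := Finset.exists_max_image (Finset.univ : Finset (Fin c.length))
    (fun j => |(x₀ j).re|) ⟨i₁, Finset.mem_univ _⟩
  have hmax : ∀ j, |(x₀ j).re| ≤ |(x₀ i).re| := fun j => hi j (Finset.mem_univ j)
  have hn : (1 : ℝ) ≤ c.length := by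
    have : 0 < c.length := i.pos
    exact_mod_cast this
  obtain ⟨p₀, hp₀⟩ := exists_val_eq (ε := ε) (K := K) (M := M) (b := b) (τ := τ₀) x₀
  have hpos : ∀ p : Fin c.length → ℕ, 0 ≤ val ε c K M b τ₀ p x₀ → ∀ j,
      |(x₀ j).im - p j * max (x₀ j).re 0| / 2 ≤ c.length * (ε * |(x₀ i).re|) := by
    intro p hp j
    have e1 := sum_ray_le hε.le hmax p j
    have e2 : 0 ≤ ∑ j, pen c K M b τ₀ p x₀ j :=
      Finset.sum_nonneg fun j _ => pen_nonneg hK0 hM0 hb.nonneg hτ₀ p x₀ j
    unfold val at hp
    linarith
  have hu : 0 < |(x₀ i).re| := by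
    by_contra hcon
    have hz : |(x₀ i).re| = 0 := le_antisymm (not_lt.mp hcon) (abs_nonneg _)
    have hre : ∀ j, (x₀ j).re = 0 := fun j => by
      have := hmax j
      rw [hz] at this
      exact abs_eq_zero.mp (le_antisymm this (abs_nonneg _))
    have e1 := hpos p₀.1 (by rw [← hp₀]; exact h0) i₁
    rw [hz, mul_zero, mul_zero, hre i₁, max_self, mul_zero, sub_zero] at e1
    have e2 : (x₀ i₁).im = 0 := by
      have := abs_nonneg (x₀ i₁).im
      exact abs_eq_zero.mp (by linarith)
    exact hi₁ (Complex.ext (hre i₁) e2)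
  set u := |(x₀ i).re| with hu_def
  have hne : (c.length : ℝ) * (ε * u) * 8 < u := by
    have : 8 * c.length * ε * u < 1 * u := mul_lt_mul_of_pos_right h1 hu
    nlinarith
  have hnd : (c.length : ℝ) * (ε * u) * 4 < d * u := by
    have : 4 * c.length * ε * u < d * u := mul_lt_mul_of_pos_right h2 hu
    nlinarith
  have hact := hpos p₀.1 (by rw [← hp₀]; exact h0) i
  rcases lt_or_ge (x₀ i).re 0 with hre | hre
  · -- negative side
    have hu' : u = -(x₀ i).re := abs_of_neg hre
    rw [max_eq_right hre.le, mul_zero, sub_zero] at hact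
    have hcr : Continuous fun y : Fin c.length → ℂ => (y i).re :=
      Complex.continuous_re.comp (continuous_apply i)
    have hci : Continuous fun y : Fin c.length → ℂ => (y i).im :=
      Complex.continuous_im.comp (continuous_apply i)
    refine RegAt.of_monOn (κ := 1 / 2) (K := 3) (by norm_num)
      (U := {y | (y i).re < 0 ∧ |(y i).im| < |(y i).re| / 4 ∧ |(y i).im| < d * |(y i).re|}) ?_ ?_
      (A := GateR.AD i 0 (-1) ε⁻¹)
    · have e1 : ∀ᶠ y : Fin c.length → ℂ in 𝓝 x₀, (y i).re < 0 :=
        hcr.continuousAt.eventually (gt_mem_nhds hre)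
      have e2 : ∀ᶠ y : Fin c.length → ℂ in 𝓝 x₀, |(y i).im| < |(y i).re| / 4 := by
        refine (hci.abs.continuousAt).eventually_lt (hcr.abs.div_const 4).continuousAt ?_
        linarith
      have e3 : ∀ᶠ y : Fin c.length → ℂ in 𝓝 x₀, |(y i).im| < d * |(y i).re| := by
        refine (hci.abs.continuousAt).eventually_lt (continuous_const.mul hcr.abs).continuousAt ?_
        rw [← hu_def]
        have : 0 < d * u := mul_pos hd hu
        linarith
      exact e1.and (e2.and e3)
    · filter_upwards [self_mem_nhdsWithin] with τ hτ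
      refine monOn_of_incr_neg hε (fun y hy => ⟨hy.1, hy.2.1⟩) ?_
      have key : ∀ y w, (y ∈ {y : Fin c.length → ℂ | (y i).re < 0 ∧ |(y i).im| < |(y i).re| / 4 ∧
          |(y i).im| < d * |(y i).re|}) → (Function.update y i w ∈ {y : Fin c.length → ℂ |
          (y i).re < 0 ∧ |(y i).im| < |(y i).re| / 4 ∧ |(y i).im| < d * |(y i).re|}) →
          (Phi ε c K M b τ (Function.update y i w)).re ≤ (Phi ε c K M b τ y).re +
            (ray ε 0 w - ray ε 0 (y i)) := by
        rintro y w ⟨hy1, _, hy3⟩ ⟨hw1, _, hw3⟩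
        rw [Function.update_self] at hw1 hw3
        obtain ⟨p, hp⟩ := exists_val_eq (ε := ε) (K := K) (M := M) (b := b) (τ := τ)
          (Function.update y i w)
        rw [hp]
        have e1 : val ε c K M b τ p.1 (Function.update y i w) ≤
            val ε c K M b τ (Function.update p.1 i 0) (Function.update y i w) := by
          refine val_le_reset hc hK0 hM0 hb.nonneg hτ _ ?_
          rw [Function.update_self]
          exact hw1.le
        have e2 := val_update (ε := ε) (K := K) (M := M) (b := b) (τ := τ)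
          (p := Function.update p.1 i 0) (x := y) (i := i) (w := w) (fun j _ _ =>
            ⟨hb.neg j _ hy1 hy3.le, hb.neg j _ hw1 hw3.le, by
              rw [Function.update_self]
              have := hc _ (List.get_mem c j)
              omega⟩)
        rw [Function.update_self] at e2
        have e3 := val_le_Phi (ε := ε) (K := K) (M := M) (b := b) (τ := τ)
          ⟨Function.update p.1 i 0, BoxP.reset hc p.2 i⟩ y
        linarith
      intro y hy w hw
      refine ⟨le_antisymm ?_ ?_, ?_⟩
      · exact key y w hy hw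
      · have e1 : Function.update (Function.update y i w) i (y i) = y := by simp
        have e2 := key (Function.update y i w) (y i) hw (by rw [e1]; exact hy)
        rw [e1, Function.update_self] at e2
        linarith
      · show turnSum (Function.update y i w) = turnSum y + (turn w - turn (y i))
        rw [← turnSum_update]
        ring
  · -- positive side
    have hre' : 0 < (x₀ i).re := lt_of_le_of_ne hre fun e => by
      rw [hu_def, ← e, abs_zero] at hu
      exact lt_irrefl _ hu
    have hu' : u = (x₀ i).re := abs_of_pos hre'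
    rw [max_eq_left hre'.le] at hact
    set k := p₀.1 i with hk
    -- good positions
    let Good : Box c → Prop := fun p => p.1 i = k ∧
      ∀ j : Fin c.length, (j : ℕ) + 1 = i → p.1 j + 1 = c.get j → k < c.get j
    have hbad : ∀ p : Box c, ¬Good p → val ε c K M b τ₀ p.1 x₀ < 0 := by
      intro p hp
      by_contra hcon
      have hcon' := not_lt.mp hcon
      have e1 := hpos p.1 hcon' i
      rw [max_eq_left hre'.le] at e1
      by_cases hpk : p.1 i = k
      · have : ∃ j : Fin c.length, (j : ℕ) + 1 = i ∧ p.1 j + 1 = c.get j ∧ c.get j ≤ k := by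
          by_contra hno
          push Not at hno
          exact hp ⟨hpk, fun j hj hj' => hno j hj hj'⟩
        obtain ⟨j, hj, hj', hjk⟩ := this
        have hj1 : (j : ℕ) + 1 < c.length := by rw [hj]; exact i.2
        have hi' : (⟨j + 1, hj1⟩ : Fin c.length) = i := Fin.ext hj
        have e2 : u ≤ pen c K M b τ₀ p.1 x₀ j := by
          unfold pen
          rw [dif_pos ⟨hj1, hj'⟩, hi', hpk, if_pos hjk]
          have e3 : (x₀ i).re ≤ b j (x₀ i) := by
            refine hb.big j hj1 k _ hjk ?_ hre' ?_
            · rw [hi', ← hpk]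
              rcases p.2 i with h | ⟨h, h'⟩
              · exact Or.inl h
              · exact Or.inr ⟨h, by omega⟩
            · rw [← hu']
              rw [← hu'] at hact
              have : 0 < d * u := mul_pos hd hu
              linarith
          have e4 : u ≤ M j * b j (x₀ i) := by
            rw [hu']
            have := hM j
            nlinarith
          have e5 : u ≤ K * |(x₀ i).re| := by
            rw [← hu_def]
            nlinarith
          have e6 := hτ₀.1
          have e7 := hτ₀.2
          nlinarith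
        have e8 : pen c K M b τ₀ p.1 x₀ j ≤ ∑ j, pen c K M b τ₀ p.1 x₀ j :=
          Finset.single_le_sum (f := fun j => pen c K M b τ₀ p.1 x₀ j)
            (fun j _ => pen_nonneg hK0 hM0 hb.nonneg hτ₀ p.1 x₀ j) (Finset.mem_univ j)
        have e9 := sum_ray_le hε.le hmax p.1 i
        have e10 := abs_nonneg ((x₀ i).im - p.1 i * max (x₀ i).re 0)
        unfold val at hcon'
        linarith
      · -- another ray
        have e2 : (1 : ℝ) ≤ |(p.1 i : ℝ) - k| := by
          have : ((p.1 i : ℤ) - (k : ℤ)) ≠ 0 := by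
            intro h
            exact hpk (by omega)
          have h3 : (1 : ℤ) ≤ |(p.1 i : ℤ) - (k : ℤ)| := Int.one_le_abs this
          have h4 : ((1 : ℤ) : ℝ) ≤ ((|(p.1 i : ℤ) - (k : ℤ)| : ℤ) : ℝ) := by exact_mod_cast h3
          push_cast at h4
          exact h4
        have e3 : |(p.1 i : ℝ) - k| * u = |((x₀ i).im - k * (x₀ i).re) -
            ((x₀ i).im - p.1 i * (x₀ i).re)| := by
          rw [← abs_of_pos hu, hu', abs_of_pos hre', ← abs_of_pos hre', ← abs_mul]
          congr 1
          rw [abs_of_pos hre']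
          ring
        have e4 := abs_sub ((x₀ i).im - k * (x₀ i).re) ((x₀ i).im - p.1 i * (x₀ i).re)
        nlinarith
    have hcv : ∀ p : Box c, ¬Good p → ∀ᶠ q : ℝ × (Fin c.length → ℂ) in 𝓝 (τ₀, x₀),
        val ε c K M b q.1 p.1 q.2 < (Phi ε c K M b q.1 q.2).re := by
      intro p hp
      refine ((continuous_val hb.cont p.1).continuousAt).eventually_lt
        (Complex.continuous_re.comp (continuous_Phi hb.cont)).continuousAt ?_
      exact (hbad p hp).trans_le h0
    have hev : ∀ᶠ q : ℝ × (Fin c.length → ℂ) in 𝓝 (τ₀, x₀), ∀ p : Box c, ¬Good p →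
        val ε c K M b q.1 p.1 q.2 < (Phi ε c K M b q.1 q.2).re := by
      rw [eventually_all]
      intro p
      by_cases hp : Good p
      · exact Eventually.of_forall fun q h => absurd hp h
      · filter_upwards [hcv p hp] with q hq _
        exact hq
    rw [nhds_prod_eq, eventually_prod_iff] at hev
    obtain ⟨pa, ha, pb, hpb, hab⟩ := hev
    have hcr : Continuous fun y : Fin c.length → ℂ => (y i).re :=
      Complex.continuous_re.comp (continuous_apply i)
    have hci : Continuous fun y : Fin c.length → ℂ => (y i).im :=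
      Complex.continuous_im.comp (continuous_apply i)
    let U : Set (Fin c.length → ℂ) := {y | pb y ∧ 0 < (y i).re ∧
      |(y i).im - k * (y i).re| < (y i).re / 4 ∧ |(y i).im - k * (y i).re| < d * (y i).re}
    refine RegAt.of_monOn (κ := 1 / 2) (K := 3) (by norm_num) (U := U) ?_ ?_
      (A := GateR.AD i k 1 ε⁻¹)
    · have hcd : Continuous fun y : Fin c.length → ℂ => |(y i).im - k * (y i).re| :=
        (hci.sub (continuous_const.mul hcr)).abs
      have e1 : ∀ᶠ y : Fin c.length → ℂ in 𝓝 x₀, 0 < (y i).re :=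
        hcr.continuousAt.eventually (lt_mem_nhds hre')
      have e2 : ∀ᶠ y : Fin c.length → ℂ in 𝓝 x₀, |(y i).im - k * (y i).re| < (y i).re / 4 := by
        refine (hcd.continuousAt).eventually_lt (hcr.div_const 4).continuousAt ?_
        linarith
      have e3 : ∀ᶠ y : Fin c.length → ℂ in 𝓝 x₀,
          |(y i).im - k * (y i).re| < d * (y i).re := by
        refine (hcd.continuousAt).eventually_lt (continuous_const.mul hcr).continuousAt ?_
        rw [← hu']
        rw [← hu'] at hact
        have : 0 < d * u := mul_pos hd hu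
        linarith
      exact hpb.and (e1.and (e2.and e3))
    · filter_upwards [mem_nhdsWithin_of_mem_nhds ha] with τ hτ
      refine monOn_of_incr_pos hε (fun y hy => ⟨hy.2.1, hy.2.2.1⟩) ?_
      have key : ∀ y w, y ∈ U → Function.update y i w ∈ U →
          (Phi ε c K M b τ (Function.update y i w)).re ≤ (Phi ε c K M b τ y).re +
            (ray ε k w - ray ε k (y i)) := by
        rintro y w ⟨hy0, hy1, _, hy3⟩ ⟨hw0, hw1, _, hw3⟩
        rw [Function.update_self] at hw1 hw3
        obtain ⟨p, hp⟩ := exists_val_eq (ε := ε) (K := K) (M := M) (b := b) (τ := τ)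
          (Function.update y i w)
        have hg : Good p := by
          by_contra hno
          have := hab hτ hw0 p hno
          linarith
        rw [hp]
        have e2 := val_update (ε := ε) (K := K) (M := M) (b := b) (τ := τ)
          (p := p.1) (x := y) (i := i) (w := w) (fun j hj hj' => by
            have h5 := hg.2 j hj hj'
            refine ⟨hb.small j k _ h5 hy1 hy3.le, hb.small j k _ h5 hw1 hw3.le, ?_⟩
            rw [hg.1]
            exact h5)
        rw [hg.1] at e2
        have e3 := val_le_Phi (ε := ε) (K := K) (M := M) (b := b) (τ := τ) p y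
        linarith
      intro y hy w hw
      refine ⟨le_antisymm (key y w hy hw) ?_, ?_⟩
      · have e1 : Function.update (Function.update y i w) i (y i) = y := by simp
        have e2 := key (Function.update y i w) (y i) hw (by rw [e1]; exact hy)
        rw [e1, Function.update_self] at e2
        linarith
      · show turnSum (Function.update y i w) = turnSum y + (turn w - turn (y i))
        rw [← turnSum_update]
        ring

/-- The family is of class `H`. -/
theorem hFam_Phi [Nonempty (Stair c)] (hc : ∀ a ∈ c, 2 ≤ a) {d : ℝ} (hd : 0 < d)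
    (hb : GateOK c d b) (hM : ∀ j, 1 ≤ M j) (hK : 1 ≤ K) (hε : 0 < ε)
    (h1 : 8 * c.length * ε < 1) (h2 : 4 * c.length * ε < d) :
    HFam (Icc (0 : ℝ) 1) (Phi ε c K M b) where
  cont := (continuous_Phi hb.cont).continuousOn
  hom := fun τ _ r hr x => by
    have hv : ∀ p : Fin c.length → ℕ, val ε c K M b τ p (r • x) = r * val ε c K M b τ p x := by
      intro p
      unfold val
      rw [mul_sub, Finset.mul_sum, Finset.mul_sum]
      congr 1
      · refine Finset.sum_congr rfl fun j _ => ?_
        rw [Pi.smul_apply, ray_smul' hr]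
      · refine Finset.sum_congr rfl fun j _ => ?_
        unfold pen
        split_ifs with h h'
        · rw [Pi.smul_apply, hb.hom j r hr, Complex.smul_re, smul_eq_mul, abs_mul,
            abs_of_nonneg hr]
          ring
        · rw [Pi.smul_apply, hb.hom j r hr]
          ring
        · rw [mul_zero]
    apply Complex.ext
    · rw [Complex.smul_re, smul_eq_mul]
      apply le_antisymm
      · obtain ⟨p, hp⟩ := exists_val_eq (ε := ε) (K := K) (M := M) (b := b) (τ := τ) (r • x)
        rw [hp, hv]
        exact mul_le_mul_of_nonneg_left (val_le_Phi p x) hr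
      · obtain ⟨p, hp⟩ := exists_val_eq (ε := ε) (K := K) (M := M) (b := b) (τ := τ) x
        rw [hp, ← hv]
        exact val_le_Phi p (r • x)
    · rw [Complex.smul_im]
      show turnSum (r • x) = r • turnSum x
      unfold turnSum
      rw [smul_eq_mul, Finset.mul_sum]
      exact Finset.sum_congr rfl fun j _ => by rw [Pi.smul_apply, turn_smul' hr]
  reg := fun τ hτ x hx h0 => regAt_Phi hc hd hb hM hK hε h1 h2 hτ hx h0

end

/-! ### The ends of the family -/

section

variable {ε K : ℝ} {M : Fin c.length → ℝ} {b : Fin c.length → ℂ → ℝ}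

theorem Phi_zero [Nonempty (Stair c)] (x : Fin c.length → ℂ) :
    Phi ε c K M b 0 x = GR ε c M b x := by
  have h : ∀ p : Box c, val ε c K M b 0 p.1 x = ∑ j, ray ε (p.1 j) (x j) -
      ∑ j : Fin c.length, if h : (j : ℕ) + 1 < c.length ∧ p.1 j + 1 = c.get j then
        M j * b j (x ⟨j + 1, h.1⟩) else 0 := by
    intro p
    unfold val
    congr 1
    refine Finset.sum_congr rfl fun j _ => ?_
    unfold pen
    split_ifs <;> ring
  unfold Phi GR
  simp only [h]

/-- Removing the forbidden positions. -/
noncomputable def fixP (c : List ℕ) (p : Fin c.length → ℕ) (l : Fin c.length) : ℕ :=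
  open Classical in
  if ∃ j : Fin c.length, (j : ℕ) + 1 = l ∧ p j + 1 = c.get j ∧ c.get j ≤ p l then 0 else p l

theorem fixP_stair (hc : ∀ a ∈ c, 2 ≤ a) {p : Fin c.length → ℕ} (hp : BoxP c p) :
    StairP c (fixP c p) := by
  intro j
  by_cases h0 : ∃ i : Fin c.length, (i : ℕ) + 1 = j ∧ p i + 1 = c.get i ∧ c.get i ≤ p j
  · have e : fixP c p j = 0 := by unfold fixP; rw [if_pos h0]
    rw [e]
    have := hc _ (List.get_mem c j)
    exact Or.inl (by omega)
  · have e : fixP c p j = p j := by unfold fixP; rw [if_neg h0]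
    rw [e]
    rcases hp j with h | ⟨h, h'⟩
    · exact Or.inl h
    · refine Or.inr ⟨h, h', ?_⟩
      by_cases h1 : ∃ i : Fin c.length, (i : ℕ) + 1 = (⟨j + 1, h'⟩ : Fin c.length) ∧
          p i + 1 = c.get i ∧ c.get i ≤ p ⟨j + 1, h'⟩
      · have e1 : fixP c p ⟨j + 1, h'⟩ = 0 := by unfold fixP; rw [if_pos h1]
        rw [e1]
        have := hc _ (List.get_mem c j)
        omega
      · have e1 : fixP c p ⟨j + 1, h'⟩ = p ⟨j + 1, h'⟩ := by unfold fixP; rw [if_neg h1]
        rw [e1]
        by_contra hcon
        exact h1 ⟨j, rfl, h, not_lt.mp hcon⟩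

theorem ray_sub_zero_le (k : ℕ) (z : ℂ) : ray ε k z - ray ε 0 z ≤ k * |z.re| := by
  unfold ray
  have h1 : max z.re 0 ≤ |z.re| := max_le (le_abs_self _) (abs_nonneg _)
  have h2 : 0 ≤ max z.re 0 := le_max_right _ _
  have h3 : |z.im| ≤ |z.im - k * max z.re 0| + k * max z.re 0 := by
    have h4 : z.im = (z.im - k * max z.re 0) + k * max z.re 0 := by ring
    calc |z.im| = |(z.im - k * max z.re 0) + k * max z.re 0| := by rw [← h4]
      _ ≤ |z.im - k * max z.re 0| + |k * max z.re 0| := abs_add_le _ _
      _ = _ := by rw [abs_of_nonneg (by positivity : (0 : ℝ) ≤ k * max z.re 0)]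
  have h5 : (k : ℝ) * max z.re 0 ≤ k * |z.re| := mul_le_mul_of_nonneg_left h1 (Nat.cast_nonneg k)
  have h6 : 0 ≤ (k : ℝ) * |z.re| := by positivity
  simp only [CharP.cast_eq_zero, zero_mul, sub_zero]
  linarith

theorem Phi_one [Nonempty (Stair c)] (hc : ∀ a ∈ c, 2 ≤ a) (hK : ∀ a ∈ c, (a : ℝ) ≤ K)
    (x : Fin c.length → ℂ) :
    Phi ε c K M b 1 x = FS ε (fun p : Stair c => p.1) x := by
  have hpen : ∀ (p : Fin c.length → ℕ) (j : Fin c.length), pen c K M b 1 p x j =
      if h : (j : ℕ) + 1 < c.length ∧ p j + 1 = c.get j then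
        K * (if c.get j ≤ p ⟨j + 1, h.1⟩ then |(x ⟨j + 1, h.1⟩).re| else 0) else 0 := by
    intro p j
    unfold pen
    split_ifs <;> ring
  apply Complex.ext
  · show (Phi ε c K M b 1 x).re = raySup ε (fun p : Stair c => p.1) x
    apply le_antisymm
    · obtain ⟨p, hp⟩ := exists_val_eq (ε := ε) (K := K) (M := M) (b := b) (τ := 1) x
      rw [hp]
      have h1 : val ε c K M b 1 p.1 x ≤ ∑ j, ray ε (fixP c p.1 j) (x j) := by
        have hK0 : 0 ≤ K ∨ c = [] := by
          rcases c with _ | ⟨a, c⟩
          · exact Or.inr rfl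
          · exact Or.inl ((Nat.cast_nonneg a).trans (hK a List.mem_cons_self))
        classical
        let w : Fin c.length → Fin c.length → ℝ := fun l j =>
          if (j : ℕ) + 1 = l ∧ p.1 j + 1 = c.get j ∧ c.get j ≤ p.1 l then K * |(x l).re| else 0
        have hKl : ∀ _l : Fin c.length, 0 ≤ K := by
          intro l
          rcases hK0 with h | h
          · exact h
          · subst h
            exact l.elim0
        have hw : ∀ l j, 0 ≤ w l j := by
          intro l j
          simp only [w]
          split_ifs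
          · exact mul_nonneg (hKl l) (abs_nonneg _)
          · exact le_rfl
        have h2 : ∀ l, ray ε (p.1 l) (x l) - ray ε (fixP c p.1 l) (x l) ≤ ∑ j, w l j := by
          intro l
          by_cases h : ∃ j : Fin c.length, (j : ℕ) + 1 = l ∧ p.1 j + 1 = c.get j ∧
              c.get j ≤ p.1 l
          · have e : fixP c p.1 l = 0 := by unfold fixP; rw [if_pos h]
            rw [e]
            obtain ⟨j, hj⟩ := h
            have e1 : w l j = K * |(x l).re| := if_pos hj
            have e2 : w l j ≤ ∑ j, w l j :=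
              Finset.single_le_sum (f := fun j => w l j) (fun j _ => hw l j) (Finset.mem_univ j)
            have e3 := ray_sub_zero_le (ε := ε) (p.1 l) (x l)
            have e4 : ((p.1 l : ℕ) : ℝ) ≤ K := by
              refine le_trans ?_ (hK _ (List.get_mem c l))
              exact_mod_cast (p.2.lt l).le
            have e5 : (p.1 l : ℝ) * |(x l).re| ≤ K * |(x l).re| :=
              mul_le_mul_of_nonneg_right e4 (abs_nonneg _)
            linarith
          · have e : fixP c p.1 l = p.1 l := by unfold fixP; rw [if_neg h]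
            rw [e, sub_self]
            exact Finset.sum_nonneg fun j _ => hw l j
        have h3 : ∀ j, ∑ l, w l j = pen c K M b 1 p.1 x j := by
          intro j
          rw [hpen]
          by_cases hj : (j : ℕ) + 1 < c.length ∧ p.1 j + 1 = c.get j
          · rw [dif_pos hj, Finset.sum_eq_single (⟨j + 1, hj.1⟩ : Fin c.length)]
            · show (if _ then _ else _) = _
              by_cases hle : c.get j ≤ p.1 ⟨j + 1, hj.1⟩
              · rw [if_pos ⟨rfl, hj.2, hle⟩, if_pos hle]
              · rw [if_neg (fun h => hle h.2.2), if_neg hle, mul_zero]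
            · intro l _ hl
              show (if _ then _ else _) = _
              rw [if_neg]
              rintro ⟨h, _⟩
              exact hl (Fin.ext h.symm)
            · intro h
              exact absurd (Finset.mem_univ _) h
          · rw [dif_neg hj]
            refine Finset.sum_eq_zero fun l _ => ?_
            show (if _ then _ else _) = _
            rw [if_neg]
            rintro ⟨h, h', _⟩
            exact hj ⟨by rw [h]; exact l.2, h'⟩
        have h4 : ∑ l, ray ε (p.1 l) (x l) - ∑ l, ray ε (fixP c p.1 l) (x l) ≤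
            ∑ j, pen c K M b 1 p.1 x j := by
          rw [← Finset.sum_sub_distrib, ← Finset.sum_congr rfl fun j _ => h3 j,
            Finset.sum_comm]
          exact Finset.sum_le_sum fun l _ => h2 l
        unfold val
        linarith
      exact h1.trans (Finset.le_sup' (fun p : Stair c => ∑ j, ray ε (p.1 j) (x j))
        (Finset.mem_univ (⟨fixP c p.1, fixP_stair hc p.2⟩ : Stair c)))
    · refine Finset.sup'_le _ _ fun p _ => ?_
      have h1 : val ε c K M b 1 p.1 x = ∑ j, ray ε (p.1 j) (x j) := by
        unfold val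
        have : ∀ j ∈ (Finset.univ : Finset (Fin c.length)), pen c K M b 1 p.1 x j = 0 := by
          intro j _
          rw [hpen]
          split_ifs with h h'
          · exfalso
            rcases p.2 j with h2 | ⟨_, h3, h4⟩
            · omega
            · omega
          · rw [mul_zero]
          · rfl
        rw [Finset.sum_eq_zero this, sub_zero]
      show ∑ j, ray ε (p.1 j) (x j) ≤ _
      rw [← h1]
      exact val_le_Phi (⟨p.1, StairP.box p.2⟩ : Box c) x
  · rfl

/-- **From the gated ray function to the ray function of the staircase.** -/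
theorem gate_hEqv [Nonempty (Stair c)] (hc : ∀ a ∈ c, 2 ≤ a) {d : ℝ} (hd : 0 < d) :
    ∃ ε₁ > 0, ∀ b, GateOK c d b → ∀ ε ∈ Ioc (0 : ℝ) ε₁, ∀ M : Fin c.length → ℝ,
      (∀ j, 1 ≤ M j) → HEqv (GR ε c M b) (FS ε fun p : Stair c => p.1) := by
  refine ⟨min (1 / (16 * (c.length + 1))) (d / (8 * (c.length + 1))), by positivity,
    fun b hb ε hε M hM => ?_⟩
  have hn : (0 : ℝ) ≤ c.length := Nat.cast_nonneg _
  have e1 : ε ≤ 1 / (16 * (c.length + 1)) := hε.2.trans (min_le_left _ _)
  have e2 : ε ≤ d / (8 * (c.length + 1)) := hε.2.trans (min_le_right _ _)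
  rw [le_div_iff₀ (by positivity)] at e1 e2
  have h0 := hε.1
  have hs : ∀ a ∈ c, (a : ℝ) ≤ 1 + c.sum := by
    intro a ha
    have : a ≤ c.sum := List.le_sum_of_mem ha
    have h : (a : ℝ) ≤ (c.sum : ℕ) := by exact_mod_cast this
    linarith
  have hfam := hFam_Phi (ε := ε) (K := 1 + c.sum) (M := M) (b := b) hc hd hb hM (by
    have : (0 : ℝ) ≤ (c.sum : ℕ) := Nat.cast_nonneg _
    linarith) h0 (by nlinarith) (by nlinarith)
  have h := HEqv.of_path hfam
  have e3 : Phi ε c (1 + c.sum) M b 0 = GR ε c M b := funext fun x => Phi_zero x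
  have e4 : Phi ε c (1 + c.sum) M b 1 = FS ε fun p : Stair c => p.1 :=
    funext fun x => Phi_one hc hs x
  rwa [e3, e4] at h

end

end Vale.Agent.P268.T.G417
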